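import Mathlib
import Vale.Agent.Lib.P249.helper68.GridDefs

/-!
# P249 grid argument, step (S3)-(S5): linearization of a box average (helper63, job G2)

Second differences of the box average of an `L`-Lipschitz function are at most `2 L / w`; hence
the box average differs from its first-order expansion at `z` by at most `(2 L / w) |v|_1 ^ 2`.
-/

namespace Vale.Agent.Lib.P249.H63

open Finset
open Vale.Agent.Lib.P249.H68

/-- The `l_1` norm of an integer vector, as a natural number. -/
def norm1 {k : ℕ} (d : Fin k → ℤ) : ℕ := ∑ i, (d i).natAbs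

theorem norm1_eq_zero {k : ℕ} {d : Fin k → ℤ} (h : norm1 d = 0) : d = 0 := by
  funext i
  have h1 := (Finset.sum_eq_zero_iff.mp h) i (Finset.mem_univ i)
  simpa using h1

theorem norm1_split {k : ℕ} (d : Fin k → ℤ) (j : Fin k) :
    norm1 d = (d j).natAbs + ∑ i ∈ univ.erase j, (d i).natAbs :=
  (Finset.add_sum_erase univ (fun i => (d i).natAbs) (Finset.mem_univ j)).symm

theorem norm1_sub_single {k : ℕ} (d : Fin k → ℤ) (j : Fin k) (hj : 0 < d j) :
    norm1 (d - Pi.single j 1) + 1 = norm1 d := by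
  rw [norm1_split (d - Pi.single j 1) j, norm1_split d j]
  have h1 : ∑ i ∈ univ.erase j, ((d - Pi.single j 1 : Fin k → ℤ) i).natAbs =
      ∑ i ∈ univ.erase j, (d i).natAbs := by
    refine Finset.sum_congr rfl (fun i hi => ?_)
    have hne : i ≠ j := Finset.ne_of_mem_erase hi
    simp [Pi.single_eq_of_ne hne]
  rw [h1]
  have h2 : ((d - Pi.single j 1 : Fin k → ℤ) j).natAbs + 1 = (d j).natAbs := by
    simp only [Pi.sub_apply, Pi.single_eq_same]
    omega
  omega

theorem norm1_add_single {k : ℕ} (d : Fin k → ℤ) (j : Fin k) (hj : d j < 0) :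
    norm1 (d + Pi.single j 1) + 1 = norm1 d := by
  rw [norm1_split (d + Pi.single j 1) j, norm1_split d j]
  have h1 : ∑ i ∈ univ.erase j, ((d + Pi.single j 1 : Fin k → ℤ) i).natAbs =
      ∑ i ∈ univ.erase j, (d i).natAbs := by
    refine Finset.sum_congr rfl (fun i hi => ?_)
    have hne : i ≠ j := Finset.ne_of_mem_erase hi
    simp [Pi.single_eq_of_ne hne]
  rw [h1]
  have h2 : ((d + Pi.single j 1 : Fin k → ℤ) j).natAbs + 1 = (d j).natAbs := by
    simp only [Pi.add_apply, Pi.single_eq_same]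
    omega
  omega

/-- Induction along unit steps: a function vanishing at `0` whose increment along a unit step
between the `l_1` spheres of radii `n - 1` and `n` is at most `s n` is bounded by the sum of the
`s m`, `1 ≤ m ≤ n`, on the sphere of radius `n`. -/
theorem l1_induction {k : ℕ} (T : (Fin k → ℤ) → ℝ) (s : ℕ → ℝ) (hT0 : T 0 = 0)
    (hstep : ∀ (d : Fin k → ℤ) (j : Fin k),
      |T (d + Pi.single j 1) - T d| ≤ s (max (norm1 d) (norm1 (d + Pi.single j 1)))) :
    ∀ (n : ℕ) (d : Fin k → ℤ), norm1 d = n → |T d| ≤ ∑ m ∈ range n, s (m + 1) := by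
  intro n
  induction n with
  | zero =>
    intro d hd
    rw [norm1_eq_zero hd, hT0]
    simp
  | succ n ih =>
    intro d hd
    have hex : ∃ j, d j ≠ 0 := by
      by_contra hcon
      push Not at hcon
      have h0 : norm1 d = 0 := by
        unfold norm1
        simp [hcon]
      omega
    obtain ⟨j, hj⟩ := hex
    rw [Finset.sum_range_succ]
    rcases lt_or_gt_of_ne hj with hneg | hpos
    · have hn' : norm1 (d + Pi.single j 1) = n := by
        have h3 := norm1_add_single d j hneg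
        omega
      have h1 := ih (d + Pi.single j 1) hn'
      have h2 := hstep d j
      rw [hd, hn', max_eq_left (Nat.le_succ n)] at h2
      have h4 : |T d| ≤ |T (d + Pi.single j 1)| + |T (d + Pi.single j 1) - T d| := by
        have h5 := abs_sub_abs_le_abs_sub (T d) (T (d + Pi.single j 1))
        rw [abs_sub_comm] at h5
        linarith
      linarith
    · have hn' : norm1 (d - Pi.single j 1) = n := by
        have h3 := norm1_sub_single d j hpos
        omega
      have h1 := ih (d - Pi.single j 1) hn'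
      have h2 := hstep (d - Pi.single j 1) j
      rw [sub_add_cancel, hn', hd, max_eq_right (Nat.le_succ n)] at h2
      have h4 : |T d| ≤ |T (d - Pi.single j 1)| + |T d - T (d - Pi.single j 1)| := by
        have h5 := abs_sub_abs_le_abs_sub (T d) (T (d - Pi.single j 1))
        linarith
      linarith

theorem boxAvg_sub {k : ℕ} (w : ℕ) (G1 G2 : (Fin k → ℤ) → ℝ) (y : Fin k → ℤ) :
    boxAvg k w G1 y - boxAvg k w G2 y = boxAvg k w (fun x => G1 x - G2 x) y := by
  unfold boxAvg
  rw [← sub_div, ← Finset.sum_sub_distrib]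

theorem boxAvg_shift_eq {k : ℕ} (w : ℕ) (G : (Fin k → ℤ) → ℝ) (y e : Fin k → ℤ) :
    boxAvg k w G (y + e) = boxAvg k w (fun x => G (x + e)) y := by
  unfold boxAvg
  congr 1
  refine Finset.sum_congr rfl (fun u _ => ?_)
  congr 1
  funext i
  simp only [Pi.add_apply]
  ring

/-- The point whose `j`-th coordinate is `y j + s` and whose other coordinates are `y i + u' i`. -/
def Q {k w : ℕ} (j : Fin k) (y : Fin k → ℤ) (u' : {i : Fin k // i ≠ j} → Fin w) (s : ℕ) :
    Fin k → ℤ :=
  fun i => if hi : i = j then y j + (s : ℤ) else y i + (((u' ⟨i, hi⟩ : Fin w) : ℕ) : ℤ)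

theorem Q_shift {k w : ℕ} (j : Fin k) (y : Fin k → ℤ) (u' : {i : Fin k // i ≠ j} → Fin w)
    (s : ℕ) : Q j (y + Pi.single j 1) u' s = Q j y u' (s + 1) := by
  funext i
  unfold Q
  by_cases hi : i = j
  · simp only [hi, dif_pos, Pi.add_apply, Pi.single_eq_same]
    push_cast
    ring
  · simp only [hi, dif_neg, not_false_eq_true, Pi.add_apply, Pi.single_eq_of_ne hi, add_zero]

theorem sum_split {k : ℕ} (w : ℕ) (F : (Fin k → ℤ) → ℝ) (y : Fin k → ℤ) (j : Fin k) :
    ∑ u : Fin k → Fin w, F (fun i => y i + (((u i : Fin w) : ℕ) : ℤ)) =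
      ∑ u' : {i : Fin k // i ≠ j} → Fin w, ∑ t : Fin w, F (Q j y u' (t : ℕ)) := by
  refine ((Equiv.funSplitAt j (Fin w)).symm.sum_comp
    (fun u : Fin k → Fin w => F (fun i => y i + (((u i : Fin w) : ℕ) : ℤ)))).symm.trans ?_
  rw [Fintype.sum_prod_type, Finset.sum_comm]
  refine Finset.sum_congr rfl (fun u' _ => Finset.sum_congr rfl (fun t _ => ?_))
  congr 1
  funext i
  unfold Q
  by_cases hi : i = j
  · subst hi
    simp [Equiv.funSplitAt, Equiv.piSplitAt]
  · simp [Equiv.funSplitAt, Equiv.piSplitAt, hi]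

theorem card_split {k : ℕ} (w : ℕ) (j : Fin k) :
    w ^ k = w * w ^ Fintype.card {i : Fin k // i ≠ j} := by
  have h := Fintype.card_congr (Equiv.funSplitAt j (Fin w))
  simpa [Fintype.card_prod, Fintype.card_fin] using h

/-- Shifting the base point of a box average of a bounded function by one unit step changes it
by at most `2 B / w`. -/
theorem boxAvg_shift_bound {k : ℕ} (w : ℕ) (hw : 0 < w) (h : (Fin k → ℤ) → ℝ) (B : ℝ)
    (hB : ∀ x, |h x| ≤ B) (y : Fin k → ℤ) (j : Fin k) :
    |boxAvg k w h (y + Pi.single j 1) - boxAvg k w h y| ≤ 2 * B / w := by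
  have hwR : (0 : ℝ) < (w : ℝ) := by exact_mod_cast hw
  unfold boxAvg
  rw [← sub_div, sum_split w h (y + Pi.single j 1) j, sum_split w h y j,
    ← Finset.sum_sub_distrib]
  have hinner : ∀ u' : {i : Fin k // i ≠ j} → Fin w,
      (∑ t : Fin w, h (Q j (y + Pi.single j 1) u' (t : ℕ)) - ∑ t : Fin w, h (Q j y u' (t : ℕ)))
        = h (Q j y u' w) - h (Q j y u' 0) := by
    intro u'
    rw [← Finset.sum_sub_distrib]
    have h1 : ∀ t : Fin w, h (Q j (y + Pi.single j 1) u' (t : ℕ)) - h (Q j y u' (t : ℕ)) =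
        (fun s : ℕ => h (Q j y u' (s + 1)) - h (Q j y u' s)) (t : ℕ) := by
      intro t
      simp only [Q_shift]
    rw [Finset.sum_congr rfl (fun t _ => h1 t),
      Fin.sum_univ_eq_sum_range (fun s : ℕ => h (Q j y u' (s + 1)) - h (Q j y u' s)) w,
      Finset.sum_range_sub (fun s : ℕ => h (Q j y u' s)) w]
  rw [Finset.sum_congr rfl (fun u' _ => hinner u')]
  have hnum : |∑ u' : {i : Fin k // i ≠ j} → Fin w, (h (Q j y u' w) - h (Q j y u' 0))| ≤
      ((w ^ Fintype.card {i : Fin k // i ≠ j} : ℕ) : ℝ) * (2 * B) := by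
    calc |∑ u' : {i : Fin k // i ≠ j} → Fin w, (h (Q j y u' w) - h (Q j y u' 0))|
        ≤ ∑ u' : {i : Fin k // i ≠ j} → Fin w, |h (Q j y u' w) - h (Q j y u' 0)| :=
          Finset.abs_sum_le_sum_abs _ _
      _ ≤ ∑ _u' : {i : Fin k // i ≠ j} → Fin w, (2 * B) := by
          refine Finset.sum_le_sum (fun u' _ => ?_)
          have h1 := hB (Q j y u' w)
          have h2 := hB (Q j y u' 0)
          have h3 := abs_sub (h (Q j y u' w)) (h (Q j y u' 0))
          linarith
      _ = ((w ^ Fintype.card {i : Fin k // i ≠ j} : ℕ) : ℝ) * (2 * B) := by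
          rw [Finset.sum_const, Finset.card_univ, Fintype.card_fun, Fintype.card_fin, nsmul_eq_mul]
  have hcard : ((w : ℝ)) ^ k = (w : ℝ) * ((w ^ Fintype.card {i : Fin k // i ≠ j} : ℕ) : ℝ) := by
    have h1 := card_split w j
    have h2 : ((w ^ k : ℕ) : ℝ) = ((w * w ^ Fintype.card {i : Fin k // i ≠ j} : ℕ) : ℝ) := by
      rw [← h1]
    push_cast at h2
    push_cast
    exact h2
  have hMpos : (0 : ℝ) < ((w ^ Fintype.card {i : Fin k // i ≠ j} : ℕ) : ℝ) := by
    have h1 : 0 < w ^ Fintype.card {i : Fin k // i ≠ j} := Nat.pow_pos hw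
    exact_mod_cast h1
  rw [abs_div, abs_of_pos (pow_pos hwR k), hcard, div_le_div_iff₀ (mul_pos hwR hMpos) hwR]
  calc |∑ u' : {i : Fin k // i ≠ j} → Fin w, (h (Q j y u' w) - h (Q j y u' 0))| * (w : ℝ)
      ≤ (((w ^ Fintype.card {i : Fin k // i ≠ j} : ℕ) : ℝ) * (2 * B)) * (w : ℝ) :=
        mul_le_mul_of_nonneg_right hnum hwR.le
    _ = 2 * B * ((w : ℝ) * ((w ^ Fintype.card {i : Fin k // i ≠ j} : ℕ) : ℝ)) := by ring

theorem sqDist_add_single {k : ℕ} (x : Fin k → ℤ) (i : Fin k) :
    sqDist (x + Pi.single i 1) x = 1 := by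
  unfold sqDist
  have h1 : ∀ l : Fin k, (((x + Pi.single i 1 : Fin k → ℤ) l : ℤ) : ℝ) - ((x l : ℤ) : ℝ) =
      if l = i then 1 else 0 := by
    intro l
    by_cases hl : l = i
    · subst hl
      simp
    · simp [hl]
  rw [Finset.sum_congr rfl (fun l _ => by rw [h1 l])]
  simp

/-- (S3) Second differences of the box average of an `L`-Lipschitz function. -/
theorem second_diff {k : ℕ} (w : ℕ) (hw : 0 < w) (G : (Fin k → ℤ) → ℝ) (L : ℝ)
    (hG : LipZ G L) (i j : Fin k) (y : Fin k → ℤ) :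
    |(boxAvg k w G (y + Pi.single j 1 + Pi.single i 1) - boxAvg k w G (y + Pi.single j 1)) -
        (boxAvg k w G (y + Pi.single i 1) - boxAvg k w G y)| ≤ 2 * L / w := by
  have key : ∀ x : Fin k → ℤ, boxAvg k w G (x + Pi.single i 1) - boxAvg k w G x =
      boxAvg k w (fun x' => G (x' + Pi.single i 1) - G x') x := by
    intro x
    rw [boxAvg_shift_eq, boxAvg_sub]
  rw [key, key]
  refine boxAvg_shift_bound w hw _ L (fun x => ?_) y j
  have h1 := hG (x + Pi.single i 1) x
  rw [sqDist_add_single, Real.sqrt_one, mul_one] at h1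
  exact h1

/-- (S4) First differences of the box average are Lipschitz for the `l_1` distance. -/
theorem first_diff_lip {k : ℕ} (w : ℕ) (hw : 0 < w) (G : (Fin k → ℤ) → ℝ) (L : ℝ)
    (hG : LipZ G L) (i : Fin k) (y d : Fin k → ℤ) :
    |(boxAvg k w G (y + d + Pi.single i 1) - boxAvg k w G (y + d)) -
        (boxAvg k w G (y + Pi.single i 1) - boxAvg k w G y)| ≤ 2 * L / w * (norm1 d : ℝ) := by
  obtain ⟨T, hT⟩ : ∃ T : (Fin k → ℤ) → ℝ, ∀ d' : Fin k → ℤ, T d' =
      (boxAvg k w G (y + d' + Pi.single i 1) - boxAvg k w G (y + d')) -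
        (boxAvg k w G (y + Pi.single i 1) - boxAvg k w G y) := ⟨_, fun _ => rfl⟩
  obtain ⟨s, hs⟩ : ∃ s : ℕ → ℝ, ∀ n : ℕ, s n = 2 * L / w := ⟨_, fun _ => rfl⟩
  have hT0 : T 0 = 0 := by
    rw [hT, add_zero]
    ring
  have hstep : ∀ (d' : Fin k → ℤ) (j : Fin k),
      |T (d' + Pi.single j 1) - T d'| ≤ s (max (norm1 d') (norm1 (d' + Pi.single j 1))) := by
    intro d' j
    rw [hT, hT, hs]
    have h2 := second_diff w hw G L hG i j (y + d')
    have h3 : ((boxAvg k w G (y + (d' + Pi.single j 1) + Pi.single i 1) -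
            boxAvg k w G (y + (d' + Pi.single j 1))) -
          (boxAvg k w G (y + Pi.single i 1) - boxAvg k w G y)) -
        ((boxAvg k w G (y + d' + Pi.single i 1) - boxAvg k w G (y + d')) -
          (boxAvg k w G (y + Pi.single i 1) - boxAvg k w G y)) =
        (boxAvg k w G (y + d' + Pi.single j 1 + Pi.single i 1) -
            boxAvg k w G (y + d' + Pi.single j 1)) -
          (boxAvg k w G (y + d' + Pi.single i 1) - boxAvg k w G (y + d')) := by
      rw [← add_assoc y d' (Pi.single j 1)]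
      ring
    rw [h3]
    exact h2
  have h1 := l1_induction T s hT0 hstep (norm1 d) d rfl
  rw [hT, Finset.sum_congr rfl (fun m _ => hs (m + 1)), Finset.sum_const, Finset.card_range,
    nsmul_eq_mul] at h1
  rw [mul_comm]
  exact h1

/-- Job G2: the linearization error of a box average. -/
theorem boxAvg_linear {k : ℕ} (w : ℕ) (hw : 0 < w) (G : (Fin k → ℤ) → ℝ) (L : ℝ) (hL : 0 ≤ L)
    (hG : LipZ G L) (z v : Fin k → ℤ) :
    |boxAvg k w G (z + v) - boxAvg k w G z
        - ∑ i, (v i : ℝ) * (boxAvg k w G (z + Pi.single i 1) - boxAvg k w G z)|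
      ≤ 2 * L / w * (∑ i, |(v i : ℝ)|) ^ 2 := by
  have hwR : (0 : ℝ) < (w : ℝ) := by exact_mod_cast hw
  have hc : 0 ≤ 2 * L / w := by positivity
  obtain ⟨T, hT⟩ : ∃ T : (Fin k → ℤ) → ℝ, ∀ v' : Fin k → ℤ, T v' =
      boxAvg k w G (z + v') - boxAvg k w G z
        - ∑ i, ((v' i : ℤ) : ℝ) * (boxAvg k w G (z + Pi.single i 1) - boxAvg k w G z) :=
    ⟨_, fun _ => rfl⟩
  obtain ⟨s, hs⟩ : ∃ s : ℕ → ℝ, ∀ n : ℕ, s n = 2 * L / w * (n : ℝ) := ⟨_, fun _ => rfl⟩
  have hT0 : T 0 = 0 := by
    rw [hT, add_zero]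
    simp
  have hstep : ∀ (v' : Fin k → ℤ) (j : Fin k),
      |T (v' + Pi.single j 1) - T v'| ≤ s (max (norm1 v') (norm1 (v' + Pi.single j 1))) := by
    intro v' j
    rw [hT, hT, hs]
    have h2 := first_diff_lip w hw G L hG j z v'
    have hsum : ∑ i, (((v' + Pi.single j 1 : Fin k → ℤ) i : ℤ) : ℝ) *
              (boxAvg k w G (z + Pi.single i 1) - boxAvg k w G z) =
        ∑ i, ((v' i : ℤ) : ℝ) * (boxAvg k w G (z + Pi.single i 1) - boxAvg k w G z) +
          (boxAvg k w G (z + Pi.single j 1) - boxAvg k w G z) := by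
      have h6 : ∀ i : Fin k, (((v' + Pi.single j 1 : Fin k → ℤ) i : ℤ) : ℝ) *
          (boxAvg k w G (z + Pi.single i 1) - boxAvg k w G z) =
          ((v' i : ℤ) : ℝ) * (boxAvg k w G (z + Pi.single i 1) - boxAvg k w G z) +
            (if i = j then (boxAvg k w G (z + Pi.single i 1) - boxAvg k w G z) else 0) := by
        intro i
        by_cases hi : i = j
        · subst hi
          simp only [Pi.add_apply, Pi.single_eq_same, if_true]
          push_cast
          ring
        · simp [hi]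
      rw [Finset.sum_congr rfl (fun i _ => h6 i), Finset.sum_add_distrib]
      simp
    have h3 : (boxAvg k w G (z + (v' + Pi.single j 1)) - boxAvg k w G z
            - ∑ i, (((v' + Pi.single j 1 : Fin k → ℤ) i : ℤ) : ℝ) *
              (boxAvg k w G (z + Pi.single i 1) - boxAvg k w G z)) -
          (boxAvg k w G (z + v') - boxAvg k w G z
            - ∑ i, ((v' i : ℤ) : ℝ) * (boxAvg k w G (z + Pi.single i 1) - boxAvg k w G z)) =
        (boxAvg k w G (z + v' + Pi.single j 1) - boxAvg k w G (z + v')) -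
          (boxAvg k w G (z + Pi.single j 1) - boxAvg k w G z) := by
      rw [hsum, ← add_assoc z v' (Pi.single j 1)]
      ring
    rw [h3]
    refine h2.trans ?_
    refine mul_le_mul_of_nonneg_left ?_ hc
    exact_mod_cast le_max_left (norm1 v') (norm1 (v' + Pi.single j 1))
  have h5 := l1_induction T s hT0 hstep (norm1 v) v rfl
  rw [hT] at h5
  have hnorm : (norm1 v : ℝ) = ∑ i, |(v i : ℝ)| := by
    unfold norm1
    push_cast
    refine Finset.sum_congr rfl (fun i _ => ?_)
    rw [Nat.cast_natAbs, Int.cast_abs]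
  have h7 : ∑ m ∈ range (norm1 v), s (m + 1) ≤ 2 * L / w * (norm1 v : ℝ) ^ 2 := by
    calc ∑ m ∈ range (norm1 v), s (m + 1)
        ≤ ∑ _m ∈ range (norm1 v), 2 * L / w * (norm1 v : ℝ) := by
          refine Finset.sum_le_sum (fun m hm => ?_)
          rw [hs]
          refine mul_le_mul_of_nonneg_left ?_ hc
          have h8 : m + 1 ≤ norm1 v := Finset.mem_range.mp hm
          exact_mod_cast h8
      _ = 2 * L / w * (norm1 v : ℝ) ^ 2 := by
          rw [Finset.sum_const, Finset.card_range, nsmul_eq_mul]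
          ring
  rw [← hnorm]
  exact h5.trans h7

end Vale.Agent.Lib.P249.H63
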